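import Vale.Agent.Lib.P098.Chk.Kron

/-!
# P098: trees of bisections for the kernel checker
-/

namespace Vale.Agent.P098.Kron

noncomputable section

/-- trees of bisections, `s i a b` halves the variable `i` -/
inductive T where
  | leaf : T
  | s (i : ℕ) (a b : T) : T

/-- left half -/
def Iv.left (I : Iv) : Iv := ⟨Int.mul 2 I.lo, Int.add I.lo I.hi, Nat.mul 2 I.den⟩

/-- right half -/
def Iv.right (I : Iv) : Iv := ⟨Int.add I.lo I.hi, Int.mul 2 I.hi, Nat.mul 2 I.den⟩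

/-- change one interval -/
def Bx.mapI (B : Bx) (i : ℕ) (f : Iv → Iv) : Bx :=
  Nat.rec (motive := fun _ => Bx) ⟨f B.i0, B.i1, B.i2, B.i3, B.K, B.m0, B.m1, B.m2, B.m3⟩
    (fun i _ => Nat.rec (motive := fun _ => Bx)
      ⟨B.i0, f B.i1, B.i2, B.i3, B.K, B.m0, B.m1, B.m2, B.m3⟩
      (fun i _ => Nat.rec (motive := fun _ => Bx)
        ⟨B.i0, B.i1, f B.i2, B.i3, B.K, B.m0, B.m1, B.m2, B.m3⟩
        (fun _ _ => ⟨B.i0, B.i1, B.i2, f B.i3, B.K, B.m0, B.m1, B.m2, B.m3⟩) i) i) i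

/-- check with a tree -/
def chkT (e : Ex) (t : T) : Bx → Bool :=
  T.rec (motive := fun _ => Bx → Bool) (fun B => chk B e)
    (fun i _ _ ca cb B => band (ca (B.mapI i Iv.left)) (cb (B.mapI i Iv.right))) t

theorem Iv.left_mem {I : Iv} {t : ℝ} (h : I.mem t) (h2 : 2 * (I.den * t) ≤ (I.lo : ℝ) + I.hi) :
    I.left.mem t := by
  obtain ⟨h0, h1⟩ := h
  refine ⟨?_, ?_⟩
  · change ((2 * I.lo : ℤ) : ℝ) ≤ ((2 * I.den : ℕ) : ℝ) * t
    push_cast; linarith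
  · change ((2 * I.den : ℕ) : ℝ) * t ≤ ((I.lo + I.hi : ℤ) : ℝ)
    push_cast; linarith

theorem Iv.right_mem {I : Iv} {t : ℝ} (h : I.mem t) (h2 : (I.lo : ℝ) + I.hi ≤ 2 * (I.den * t)) :
    I.right.mem t := by
  obtain ⟨h0, h1⟩ := h
  refine ⟨?_, ?_⟩
  · change ((I.lo + I.hi : ℤ) : ℝ) ≤ ((2 * I.den : ℕ) : ℝ) * t
    push_cast; linarith
  · change ((2 * I.den : ℕ) : ℝ) * t ≤ ((2 * I.hi : ℤ) : ℝ)
    push_cast; linarith

theorem Iv.left_or_right {I : Iv} {t : ℝ} (h : I.mem t) : I.left.mem t ∨ I.right.mem t := by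
  rcases le_total (2 * (I.den * t)) ((I.lo : ℝ) + I.hi) with h2 | h2
  · exact Or.inl (I.left_mem h h2)
  · exact Or.inr (I.right_mem h h2)

theorem mapI_sound (B : Bx) (hB : B.Pos) (i : ℕ) (xs : Fin 4 → ℝ)
    (hxs : ∀ i, (B.iv i).mem (xs i)) :
    ((B.mapI i Iv.left).Pos ∧ (B.mapI i Iv.right).Pos) ∧
    ((∀ j, ((B.mapI i Iv.left).iv j).mem (xs j)) ∨ ∀ j, ((B.mapI i Iv.right).iv j).mem (xs j)) := by
  obtain ⟨b0, b1, b2, b3⟩ := hB
  have h0 := hxs 0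
  have h1 := hxs 1
  have h2 := hxs 2
  have h3 := hxs 3
  match i with
  | 0 =>
    refine ⟨⟨⟨Nat.mul_pos two_pos b0, b1, b2, b3⟩, ⟨Nat.mul_pos two_pos b0, b1, b2, b3⟩⟩, ?_⟩
    rcases Iv.left_or_right h0 with h | h
    · left; intro j; fin_cases j
      exacts [h, h1, h2, h3]
    · right; intro j; fin_cases j
      exacts [h, h1, h2, h3]
  | 1 =>
    refine ⟨⟨⟨b0, Nat.mul_pos two_pos b1, b2, b3⟩, ⟨b0, Nat.mul_pos two_pos b1, b2, b3⟩⟩, ?_⟩
    rcases Iv.left_or_right h1 with h | h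
    · left; intro j; fin_cases j
      exacts [h0, h, h2, h3]
    · right; intro j; fin_cases j
      exacts [h0, h, h2, h3]
  | 2 =>
    refine ⟨⟨⟨b0, b1, Nat.mul_pos two_pos b2, b3⟩, ⟨b0, b1, Nat.mul_pos two_pos b2, b3⟩⟩, ?_⟩
    rcases Iv.left_or_right h2 with h | h
    · left; intro j; fin_cases j
      exacts [h0, h1, h, h3]
    · right; intro j; fin_cases j
      exacts [h0, h1, h, h3]
  | (n + 3) =>
    refine ⟨⟨⟨b0, b1, b2, Nat.mul_pos two_pos b3⟩, ⟨b0, b1, b2, Nat.mul_pos two_pos b3⟩⟩, ?_⟩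
    rcases Iv.left_or_right h3 with h | h
    · left; intro j; fin_cases j
      exacts [h0, h1, h2, h]
    · right; intro j; fin_cases j
      exacts [h0, h1, h2, h]

theorem chkT_sound (e : Ex) (t : T) : ∀ B : Bx, B.Pos → chkT e t B = true →
    ∀ xs : Fin 4 → ℝ, (∀ i, (B.iv i).mem (xs i)) → 0 ≤ ev xs e [] := by
  induction t with
  | leaf => intro B hB h xs hxs; exact chk_sound B hB e h xs hxs
  | s i a b iha ihb =>
    intro B hB h xs hxs
    obtain ⟨ha, hb⟩ := (band_eq _ _).1 h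
    obtain ⟨⟨p1, p2⟩, h | h⟩ := mapI_sound B hB i xs hxs
    · exact iha _ p1 ha xs h
    · exact ihb _ p2 hb xs h

end

end Vale.Agent.P098.Kron
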