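import Mathlib

/-! # P098: kernel checker, polynomial inequalities in four variables on boxes

The Bernstein form of a polynomial on a box is its homogenised form in `w ≥ 0`; it is evaluated at
one point (Kronecker substitution) with natural numbers; positive and negative parts separately. -/

namespace Vale.Agent.P098.Kron

noncomputable section

open MvPolynomial

/-! ## digits -/

def dig (K : ℕ) {m : ℕ} (f : Fin m → ℕ) : ℕ := ∑ i, f i * (2 ^ K) ^ (i : ℕ)

theorem dig_succ (K : ℕ) {m : ℕ} (f : Fin (m + 1) → ℕ) :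
    dig K f = f 0 + 2 ^ K * dig K (fun i => f i.succ) := by
  simp only [dig, Fin.sum_univ_succ, Finset.mul_sum]
  congr 1
  · simp
  · refine Finset.sum_congr rfl fun i _ => ?_
    simp only [Fin.val_succ, pow_succ]; ring

/-- all digits have their top bit -/
theorem land_dig (K : ℕ) {m : ℕ} (f : Fin m → ℕ) (hf : ∀ i, f i < 2 ^ (K + 1))
    (h : (dig (K + 1) f) &&& (dig (K + 1) (fun _ : Fin m => 2 ^ K))
      = dig (K + 1) (fun _ : Fin m => 2 ^ K)) : ∀ i, 2 ^ K ≤ f i := by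
  induction m with
  | zero => intro i; exact i.elim0
  | succ m ih =>
    rw [dig_succ, dig_succ] at h
    have hb : ∀ a b : ℕ, a < 2 ^ (K + 1) → (a + 2 ^ (K + 1) * b) % 2 ^ (K + 1) = a := by
      intro a b ha
      rw [Nat.add_mul_mod_self_left, Nat.mod_eq_of_lt ha]
    have hd : ∀ a b : ℕ, a < 2 ^ (K + 1) → (a + 2 ^ (K + 1) * b) / 2 ^ (K + 1) = b := by
      intro a b ha
      rw [Nat.add_mul_div_left _ _ (by positivity), Nat.div_eq_of_lt ha, zero_add]
    have hK : (2 : ℕ) ^ K < 2 ^ (K + 1) := Nat.pow_lt_pow_right (by norm_num) (by omega)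
    have h1 := congrArg (fun t => t % 2 ^ (K + 1)) h
    have h2 := congrArg (fun t => t / 2 ^ (K + 1)) h
    beta_reduce at h1 h2
    rw [Nat.and_mod_two_pow, hb _ _ (hf 0), hb _ _ hK] at h1
    rw [Nat.and_div_two_pow, hd _ _ (hf 0), hd _ _ hK] at h2
    have h0 : 2 ^ K ≤ f 0 := by
      calc 2 ^ K = f 0 &&& 2 ^ K := h1.symm
        _ ≤ f 0 := Nat.and_le_left
    have h3 := ih (fun i => f i.succ) (fun i => hf _) h2
    intro i
    refine Fin.cases h0 (fun j => h3 j) i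

/-- all top bits -/
def off (K m : ℕ) : ℕ :=
  Nat.mul (Nat.pow 2 K) (Nat.div (Nat.sub (Nat.pow 2 (Nat.mul (Nat.succ K) m)) 1)
    (Nat.sub (Nat.pow 2 (Nat.succ K)) 1))

theorem off_eq (K m : ℕ) : off K m = dig (K + 1) (fun _ : Fin m => 2 ^ K) := by
  change 2 ^ K * ((2 ^ ((K + 1) * m) - 1) / (2 ^ (K + 1) - 1)) = _
  have h2 : 2 ≤ 2 ^ (K + 1) := by
    calc 2 = 2 ^ 1 := by norm_num
      _ ≤ 2 ^ (K + 1) := Nat.pow_le_pow_right (by norm_num) (by omega)
  rw [pow_mul, ← Nat.geomSum_eq h2, Finset.mul_sum, dig, Finset.sum_range]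

/-- the digit check -/
def chkD (K m P N S : ℕ) : Bool :=
  Bool.rec (motive := fun _ => Bool) false
    (Nat.beq (Nat.land (Nat.sub (Nat.add P (off K m)) N) (off K m)) (off K m))
    (Nat.blt S (Nat.pow 2 K))

theorem brec_eq (a b : Bool) : (Bool.rec (motive := fun _ => Bool) false a b) = (b && a) := by
  cases b <;> rfl

theorem chkD_sound (K m P N S : ℕ) (f g : Fin m → ℕ) (hP : P = dig (K + 1) f)
    (hN : N = dig (K + 1) g) (hS : ∑ i, (f i + g i) = S) (h : chkD K m P N S = true) :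
    ∀ i, g i ≤ f i := by
  unfold chkD at h
  rw [brec_eq, Bool.and_eq_true] at h
  obtain ⟨h1, h2⟩ := h
  change Nat.blt S (2 ^ K) = true at h1
  rw [Nat.blt_eq] at h1
  have hi : ∀ i, f i + g i < 2 ^ K := fun i =>
    lt_of_le_of_lt (Finset.single_le_sum (f := fun i => f i + g i)
      (fun _ _ => Nat.zero_le _) (Finset.mem_univ i)) (hS ▸ h1)
  have h2K : (2 : ℕ) ^ (K + 1) = 2 ^ K + 2 ^ K := by rw [pow_succ]; ring
  change Nat.beq ((P + off K m - N) &&& (off K m)) (off K m) = true at h2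
  rw [Nat.beq_eq, hP, hN, off_eq] at h2
  have hsub : dig (K + 1) f + dig (K + 1) (fun _ : Fin m => 2 ^ K) - dig (K + 1) g
      = dig (K + 1) (fun i => f i + 2 ^ K - g i) := by
    have : dig (K + 1) (fun i => f i + 2 ^ K - g i) + dig (K + 1) g
        = dig (K + 1) f + dig (K + 1) (fun _ : Fin m => 2 ^ K) := by
      simp only [dig, ← Finset.sum_add_distrib, ← add_mul]
      refine Finset.sum_congr rfl fun i _ => ?_
      have := hi i
      congr 1
      omega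
    omega
  rw [hsub] at h2
  have h3 := land_dig K (fun i => f i + 2 ^ K - g i) (fun i => by have := hi i; omega) h2
  intro i
  have h4 := h3 i
  have h5 := hi i
  omega

/-! ## Kronecker substitution -/

def enc (m0 m1 m2 : ℕ) (a : Fin 4 →₀ ℕ) : ℕ := a 0 + m0 * (a 1 + m1 * (a 2 + m2 * a 3))

def dec (m0 m1 m2 j : ℕ) : Fin 4 →₀ ℕ :=
  Finsupp.equivFunOnFinite.symm ![j % m0, j / m0 % m1, j / m0 / m1 % m2, j / m0 / m1 / m2]

theorem enc_dec (m0 m1 m2 j : ℕ) : enc m0 m1 m2 (dec m0 m1 m2 j) = j := by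
  simp only [enc, dec, Finsupp.equivFunOnFinite_symm_apply_apply, Matrix.cons_val_zero,
    Matrix.cons_val_one, Matrix.cons_val]
  rw [Nat.mod_add_div, Nat.mod_add_div, Nat.mod_add_div]

theorem dec_enc (m0 m1 m2 : ℕ) (a : Fin 4 →₀ ℕ) (h0 : a 0 < m0) (h1 : a 1 < m1) (h2 : a 2 < m2) :
    dec m0 m1 m2 (enc m0 m1 m2 a) = a := by
  have e0 : enc m0 m1 m2 a % m0 = a 0 := by
    rw [enc, Nat.add_mul_mod_self_left, Nat.mod_eq_of_lt h0]
  have e0' : enc m0 m1 m2 a / m0 = a 1 + m1 * (a 2 + m2 * a 3) := by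
    rw [enc, Nat.add_mul_div_left _ _ (by omega), Nat.div_eq_of_lt h0, zero_add]
  have e1 : enc m0 m1 m2 a / m0 % m1 = a 1 := by
    rw [e0', Nat.add_mul_mod_self_left, Nat.mod_eq_of_lt h1]
  have e1' : enc m0 m1 m2 a / m0 / m1 = a 2 + m2 * a 3 := by
    rw [e0', Nat.add_mul_div_left _ _ (by omega), Nat.div_eq_of_lt h1, zero_add]
  have e2 : enc m0 m1 m2 a / m0 / m1 % m2 = a 2 := by
    rw [e1', Nat.add_mul_mod_self_left, Nat.mod_eq_of_lt h2]
  have e2' : enc m0 m1 m2 a / m0 / m1 / m2 = a 3 := by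
    rw [e1', Nat.add_mul_div_left _ _ (by omega), Nat.div_eq_of_lt h2, zero_add]
  ext i
  simp only [dec, Finsupp.equivFunOnFinite_symm_apply_apply, e0, e1, e2, e2']
  fin_cases i <;> rfl

theorem enc_lt (m0 m1 m2 m3 : ℕ) (a : Fin 4 →₀ ℕ) (h0 : a 0 < m0) (h1 : a 1 < m1) (h2 : a 2 < m2)
    (h3 : a 3 < m3) : enc m0 m1 m2 a < m0 * (m1 * (m2 * m3)) := by
  have key : ∀ a m b M : ℕ, a < m → b < M → a + m * b < m * M := by
    intro a m b M ha hb
    calc a + m * b < m + m * b := by omega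
      _ = m * (b + 1) := by ring
      _ ≤ m * M := Nat.mul_le_mul_left _ hb
  exact key _ _ _ _ h0 (key _ _ _ _ h1 (key _ _ _ _ h2 h3))

section ev
variable {R : Type} [CommSemiring R]

/-- evaluation -/
def E (w : Fin 4 → R) : MvPolynomial (Fin 4) ℕ →+* R := eval₂Hom (Nat.castRingHom R) w

theorem E_C (w : Fin 4 → R) (a : ℕ) : E w (C a) = (a : R) := by simp [E]
theorem E_X (w : Fin 4 → R) (i : Fin 4) : E w (X i) = w i := by simp [E]

theorem E_sum (m0 m1 m2 m3 : ℕ) (w : Fin 4 → R) (p : MvPolynomial (Fin 4) ℕ)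
    (h0 : p.degreeOf 0 < m0) (h1 : p.degreeOf 1 < m1) (h2 : p.degreeOf 2 < m2)
    (h3 : p.degreeOf 3 < m3) :
    E w p = ∑ j : Fin (m0 * (m1 * (m2 * m3))), ((p.coeff (dec m0 m1 m2 j) : ℕ) : R) *
      ∏ i, w i ^ (dec m0 m1 m2 j i) := by
  have hs : ∀ a ∈ p.support, a 0 < m0 ∧ a 1 < m1 ∧ a 2 < m2 ∧ a 3 < m3 := by
    intro a ha
    refine ⟨?_, ?_, ?_, ?_⟩
    · exact lt_of_le_of_lt (monomial_le_degreeOf 0 ha) h0
    · exact lt_of_le_of_lt (monomial_le_degreeOf 1 ha) h1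
    · exact lt_of_le_of_lt (monomial_le_degreeOf 2 ha) h2
    · exact lt_of_le_of_lt (monomial_le_degreeOf 3 ha) h3
  have e1 : E w p = ∑ a ∈ p.support, ((p.coeff a : ℕ) : R) * ∏ i, w i ^ a i := by
    simp only [E, coe_eval₂Hom]
    rw [eval₂_eq']
    simp
  rw [e1, ← Finset.sum_range (f := fun j => ((p.coeff (dec m0 m1 m2 j) : ℕ) : R) *
      ∏ i, w i ^ (dec m0 m1 m2 j i))]
  rw [← Finset.sum_filter_add_sum_filter_not (Finset.range (m0 * (m1 * (m2 * m3))))
    (fun j => dec m0 m1 m2 j ∈ p.support)]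
  have z : ∑ j ∈ (Finset.range (m0 * (m1 * (m2 * m3)))).filter
      (fun j => ¬ dec m0 m1 m2 j ∈ p.support), ((p.coeff (dec m0 m1 m2 j) : ℕ) : R) *
      ∏ i, w i ^ (dec m0 m1 m2 j i) = 0 := by
    refine Finset.sum_eq_zero fun j hj => ?_
    rw [Finset.mem_filter] at hj
    have := hj.2
    rw [notMem_support_iff] at this
    rw [this]; simp
  rw [z, add_zero]
  refine Finset.sum_nbij' (enc m0 m1 m2) (dec m0 m1 m2) ?_ ?_ ?_ ?_ ?_
  · intro a ha
    obtain ⟨a0, a1, a2, a3⟩ := hs a ha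
    rw [Finset.mem_filter, Finset.mem_range, dec_enc _ _ _ _ a0 a1 a2]
    exact ⟨enc_lt _ _ _ _ _ a0 a1 a2 a3, ha⟩
  · intro j hj
    rw [Finset.mem_filter] at hj
    exact hj.2
  · intro a ha
    obtain ⟨a0, a1, a2, a3⟩ := hs a ha
    exact dec_enc _ _ _ _ a0 a1 a2
  · intro j _
    exact enc_dec _ _ _ _
  · intro a ha
    obtain ⟨a0, a1, a2, a3⟩ := hs a ha
    rw [dec_enc _ _ _ _ a0 a1 a2]

end ev

/-- the evaluation point -/
def kap (b m0 m1 m2 : ℕ) : Fin 4 → ℕ := ![2 ^ b, 2 ^ (b * m0), 2 ^ (b * (m0 * m1)),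
  2 ^ (b * (m0 * (m1 * m2)))]

theorem kap_prod (b m0 m1 m2 : ℕ) (a : Fin 4 →₀ ℕ) :
    ∏ i, kap b m0 m1 m2 i ^ a i = (2 ^ b) ^ (enc m0 m1 m2 a) := by
  simp only [Fin.prod_univ_four, kap, enc, Matrix.cons_val_zero, Matrix.cons_val_one,
    Matrix.cons_val]
  simp only [← pow_mul, ← pow_add]
  congr 1
  ring

theorem E_kap (b m0 m1 m2 m3 : ℕ) (p : MvPolynomial (Fin 4) ℕ)
    (h0 : p.degreeOf 0 < m0) (h1 : p.degreeOf 1 < m1) (h2 : p.degreeOf 2 < m2)
    (h3 : p.degreeOf 3 < m3) :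
    E (kap b m0 m1 m2) p = dig b (fun j : Fin (m0 * (m1 * (m2 * m3))) =>
      p.coeff (dec m0 m1 m2 j)) := by
  rw [E_sum m0 m1 m2 m3 _ p h0 h1 h2 h3, dig]
  refine Finset.sum_congr rfl fun j _ => ?_
  rw [kap_prod, enc_dec]; simp

theorem final_nonneg (K m0 m1 m2 m3 : ℕ) (p n : MvPolynomial (Fin 4) ℕ) (P N S : ℕ)
    (hP : E (kap (K + 1) m0 m1 m2) p = P) (hN : E (kap (K + 1) m0 m1 m2) n = N)
    (hS : E (fun _ => (1 : ℕ)) p + E (fun _ => (1 : ℕ)) n = S)
    (hp : p.degreeOf 0 < m0 ∧ p.degreeOf 1 < m1 ∧ p.degreeOf 2 < m2 ∧ p.degreeOf 3 < m3)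
    (hn : n.degreeOf 0 < m0 ∧ n.degreeOf 1 < m1 ∧ n.degreeOf 2 < m2 ∧ n.degreeOf 3 < m3)
    (h : chkD K (m0 * (m1 * (m2 * m3))) P N S = true) (w : Fin 4 → ℝ) (hw : ∀ i, 0 ≤ w i) :
    0 ≤ E w p - E w n := by
  obtain ⟨p0, p1, p2, p3⟩ := hp
  obtain ⟨n0, n1, n2, n3⟩ := hn
  rw [E_kap (K + 1) m0 m1 m2 m3 p p0 p1 p2 p3] at hP
  rw [E_kap (K + 1) m0 m1 m2 m3 n n0 n1 n2 n3] at hN
  have hS' : ∑ j : Fin (m0 * (m1 * (m2 * m3))), (p.coeff (dec m0 m1 m2 j) +
      n.coeff (dec m0 m1 m2 j)) = S := by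
    rw [← hS, E_sum m0 m1 m2 m3 _ p p0 p1 p2 p3, E_sum m0 m1 m2 m3 _ n n0 n1 n2 n3,
      ← Finset.sum_add_distrib]
    refine Finset.sum_congr rfl fun j _ => ?_
    simp
  have key := chkD_sound K _ P N S _ _ hP.symm hN.symm hS' h
  rw [E_sum m0 m1 m2 m3 _ p p0 p1 p2 p3, E_sum m0 m1 m2 m3 _ n n0 n1 n2 n3,
    ← Finset.sum_sub_distrib]
  refine Finset.sum_nonneg fun j _ => ?_
  rw [← sub_mul]
  refine mul_nonneg ?_ (Finset.prod_nonneg fun i _ => pow_nonneg (hw i) _)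
  have := key j
  exact sub_nonneg.2 (by exact_mod_cast this)


/-! ## expressions and values -/

/-- expressions: integers, box variables, bound variables, ring operations, let -/
inductive Ex where
  | c (z : ℤ)
  | q (z : ℤ) (d : ℕ)
  | x0
  | x1
  | x2
  | x3
  | v (k : ℕ)
  | add (a b : Ex)
  | sub (a b : Ex)
  | mul (a b : Ex)
  | letE (a b : Ex)

/-- real value -/
def ev (xs : Fin 4 → ℝ) : Ex → List ℝ → ℝ
  | .c z, _ => z
  | .q z d, _ => z / d
  | .x0, _ => xs 0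
  | .x1, _ => xs 1
  | .x2, _ => xs 2
  | .x3, _ => xs 3
  | .v k, env => env.getD k 0
  | .add a b, env => ev xs a env + ev xs b env
  | .sub a b, env => ev xs a env - ev xs b env
  | .mul a b, env => ev xs a env * ev xs b env
  | .letE a b, env => ev xs b (ev xs a env :: env)

/-- evaluated polynomial: positive part, negative part, sum of the coefficients, denominator,
degrees -/
structure Val where
  P : ℕ
  N : ℕ
  S : ℕ
  Q : ℕ
  d0 : ℕ
  d1 : ℕ
  d2 : ℕ
  d3 : ℕ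

/-- interval data of one variable: `[lo/den, hi/den]` -/
structure Iv where
  lo : ℤ
  hi : ℤ
  den : ℕ

def Val.d (V : Val) : Fin 4 → ℕ := ![V.d0, V.d1, V.d2, V.d3]

/-- positive part of an integer -/
def zp (z : ℤ) : ℕ := Int.rec (motive := fun _ => ℕ) (fun n => n) (fun _ => 0) z
/-- negative part of an integer -/
def zn (z : ℤ) : ℕ := Int.rec (motive := fun _ => ℕ) (fun _ => 0) (fun n => Nat.succ n) z

theorem zp_zn (z : ℤ) : ((zp z : ℕ) : ℝ) - ((zn z : ℕ) : ℝ) = (z : ℝ) := by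
  cases z with
  | ofNat n => simp [zp, zn]
  | negSucc n => simp [zp, zn, Int.negSucc_eq]

/-- force evaluation in the kernel -/
def force (n : ℕ) (k : ℕ → Bool) : Bool :=
  Nat.rec (motive := fun _ => Bool) (k 0) (fun m _ => k (Nat.succ m)) n

theorem force_eq (n : ℕ) (k : ℕ → Bool) : force n k = k n := by cases n <;> rfl

/-- force a value -/
def fV (P N S Q d0 d1 d2 d3 : ℕ) (k : Val → Bool) : Bool :=
  force P fun P => force N fun N => force S fun S => force Q fun Q => force d0 fun d0 =>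
    force d1 fun d1 => force d2 fun d2 => force d3 fun d3 => k ⟨P, N, S, Q, d0, d1, d2, d3⟩

theorem fV_eq (P N S Q d0 d1 d2 d3 : ℕ) (k : Val → Bool) :
    fV P N S Q d0 d1 d2 d3 k = k ⟨P, N, S, Q, d0, d1, d2, d3⟩ := by
  simp only [fV, force_eq]

/-- box and base data -/
structure Bx where
  i0 : Iv
  i1 : Iv
  i2 : Iv
  i3 : Iv
  K : ℕ
  m0 : ℕ
  m1 : ℕ
  m2 : ℕ
  m3 : ℕ

variable (B : Bx)

def Bx.iv (i : Fin 4) : Iv := ![B.i0, B.i1, B.i2, B.i3] i

def Bx.kap : Fin 4 → ℕ := Kron.kap (B.K + 1) B.m0 B.m1 B.m2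

/-- `H` at the Kronecker point -/
def W0 : ℕ := Nat.pow 2 (Nat.succ B.K)
def W1 : ℕ := Nat.pow 2 (Nat.mul (Nat.succ B.K) B.m0)
def W2 : ℕ := Nat.pow 2 (Nat.mul (Nat.succ B.K) (Nat.mul B.m0 B.m1))
def W3 : ℕ := Nat.pow 2 (Nat.mul (Nat.succ B.K) (Nat.mul B.m0 (Nat.mul B.m1 B.m2)))

theorem W0_eq : W0 B = B.kap 0 := rfl
theorem W1_eq : W1 B = B.kap 1 := rfl
theorem W2_eq : W2 B = B.kap 2 := rfl
theorem W3_eq : W3 B = B.kap 3 := rfl

/-- the homogeniser polynomial -/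
def Hp (i : Fin 4) : MvPolynomial (Fin 4) ℕ := C (B.iv i).den * (1 + X i)

/-- homogeniser product -/
def Hpow (d : Fin 4 → ℕ) : MvPolynomial (Fin 4) ℕ := ∏ i, Hp B i ^ d i

/-- the value of a box variable as a function of `w` -/
def xf (w : Fin 4 → ℝ) (i : Fin 4) : ℝ :=
  ((B.iv i).lo + (B.iv i).hi * w i) / ((B.iv i).den * (1 + w i))

/-- `V` represents the function `f` -/
def Rep (V : Val) (f : (Fin 4 → ℝ) → ℝ) : Prop :=
  0 < V.Q ∧ ∃ p n : MvPolynomial (Fin 4) ℕ, E B.kap p = V.P ∧ E B.kap n = V.N ∧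
    E (fun _ => (1 : ℕ)) p + E (fun _ => (1 : ℕ)) n = V.S ∧
    (∀ i, p.degreeOf i ≤ V.d i) ∧ (∀ i, n.degreeOf i ≤ V.d i) ∧
    ∀ w : Fin 4 → ℝ, (∀ i, 0 ≤ w i) → E w p - E w n = f w * (V.Q * E w (Hpow B V.d))

theorem degreeOf_Hp (i j : Fin 4) : (Hp B i).degreeOf j ≤ if i = j then 1 else 0 := by
  refine (degreeOf_C_mul_le _ _ _).trans ?_
  refine (degreeOf_add_le _ _ _).trans ?_
  rw [degreeOf_X]
  have : (1 : MvPolynomial (Fin 4) ℕ).degreeOf j = 0 := by
    rw [← C_1]; exact degreeOf_C _ _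
  rw [this]
  simp only [eq_comm, Nat.zero_max, le_refl]

theorem degreeOf_Hpow (d : Fin 4 → ℕ) (j : Fin 4) : (Hpow B d).degreeOf j ≤ d j := by
  unfold Hpow
  refine (degreeOf_prod_le _ _ _).trans ?_
  calc ∑ i, (Hp B i ^ d i).degreeOf j ≤ ∑ i, d i * (if i = j then 1 else 0) := by
        refine Finset.sum_le_sum fun i _ => ?_
        refine (degreeOf_pow_le _ _ _).trans ?_
        exact Nat.mul_le_mul_left _ (degreeOf_Hp B i j)
    _ = d j := by simp

theorem Hpow_add (d e : Fin 4 → ℕ) : Hpow B (d + e) = Hpow B d * Hpow B e := by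
  simp only [Hpow, Pi.add_apply, pow_add, Finset.prod_mul_distrib]


theorem Rep.congr {V : Val} {f g : (Fin 4 → ℝ) → ℝ} (h : Rep B V f) (hfg : ∀ w, f w = g w) :
    Rep B V g := by
  obtain rfl : f = g := funext hfg
  exact h

/-! ### constants and variables -/

def qV (z : ℤ) (d : ℕ) : Val := ⟨zp z, zn z, Nat.add (zp z) (zn z), d, 0, 0, 0, 0⟩

theorem rep_q (z : ℤ) (d : ℕ) (hd : 0 < d) : Rep B (qV z d) (fun _ => (z : ℝ) / d) := by
  refine ⟨hd, C (zp z), C (zn z), by rw [E_C]; rfl, by rw [E_C]; rfl, ?_, ?_, ?_, ?_⟩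
  · rw [E_C, E_C]; rfl
  · intro i; rw [degreeOf_C]; exact Nat.zero_le _
  · intro i; rw [degreeOf_C]; exact Nat.zero_le _
  · intro w _
    have h0 : (qV z d).d = 0 := by
      funext i; fin_cases i <;> rfl
    have h1 : ((qV z d).Q : ℝ) = d := rfl
    have h2 : (d : ℝ) ≠ 0 := by exact_mod_cast hd.ne'
    rw [E_C, E_C, zp_zn, h0, h1, Hpow]
    simp only [Pi.zero_apply, pow_zero, Finset.prod_const_one, map_one, mul_one]
    field_simp

theorem rep_c (z : ℤ) : Rep B (qV z 1) (fun _ => (z : ℝ)) :=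
  (rep_q B z 1 one_pos).congr B (fun _ => by simp)

/-- value of a variable -/
def xV (I : Iv) (W d0 d1 d2 d3 : ℕ) : Val :=
  ⟨Nat.add (zp I.lo) (Nat.mul (zp I.hi) W), Nat.add (zn I.lo) (Nat.mul (zn I.hi) W),
    Nat.add (Nat.add (zp I.lo) (zp I.hi)) (Nat.add (zn I.lo) (zn I.hi)), 1, d0, d1, d2, d3⟩

theorem rep_x (i : Fin 4) (V : Val) (hV : V.d = Pi.single i 1) (hQ : V.Q = 1)
    (hP : V.P = zp (B.iv i).lo + zp (B.iv i).hi * B.kap i)
    (hN : V.N = zn (B.iv i).lo + zn (B.iv i).hi * B.kap i)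
    (hS : V.S = (zp (B.iv i).lo + zp (B.iv i).hi) + (zn (B.iv i).lo + zn (B.iv i).hi))
    (hden : 0 < (B.iv i).den) : Rep B V (fun w => xf B w i) := by
  have hdeg : ∀ a b : ℕ, ∀ j, (C a + C b * X i : MvPolynomial (Fin 4) ℕ).degreeOf j ≤ V.d j := by
    intro a b j
    refine (degreeOf_add_le _ _ _).trans ?_
    rw [degreeOf_C, Nat.zero_max]
    refine (degreeOf_C_mul_le _ _ _).trans ?_
    rw [degreeOf_X, hV, Pi.single_apply]
  refine ⟨by rw [hQ]; exact one_pos, C (zp (B.iv i).lo) + C (zp (B.iv i).hi) * X i,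
    C (zn (B.iv i).lo) + C (zn (B.iv i).hi) * X i, ?_, ?_, ?_, hdeg _ _, hdeg _ _, ?_⟩
  · rw [map_add, map_mul, E_C, E_C, E_X, hP]; rfl
  · rw [map_add, map_mul, E_C, E_C, E_X, hN]; rfl
  · simp only [map_add, map_mul, E_C, E_X, hS, mul_one]; rfl
  · intro w hw
    have h1 : Hpow B V.d = Hp B i := by
      rw [hV, Hpow]
      rw [Finset.prod_eq_single i]
      · simp
      · intro j _ hj; simp [hj]
      · intro h; exact absurd (Finset.mem_univ _) h
    have hd : (0 : ℝ) < (B.iv i).den := by exact_mod_cast hden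
    have hw1 : (0 : ℝ) < 1 + w i := by have := hw i; linarith
    rw [h1, Hp, hQ]
    simp only [map_add, map_mul, E_C, E_X, map_one, xf, Nat.cast_one, one_mul]
    rw [← zp_zn (B.iv i).lo, ← zp_zn (B.iv i).hi]
    field_simp
    ring

/-! ### padding -/

def padF (k0 k1 k2 k3 : ℕ) : ℕ :=
  Nat.mul (Nat.mul (Nat.mul (Nat.pow (Nat.mul B.i0.den (Nat.add 1 (W0 B))) k0)
    (Nat.pow (Nat.mul B.i1.den (Nat.add 1 (W1 B))) k1))
    (Nat.pow (Nat.mul B.i2.den (Nat.add 1 (W2 B))) k2))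
    (Nat.pow (Nat.mul B.i3.den (Nat.add 1 (W3 B))) k3)

def padS (k0 k1 k2 k3 : ℕ) : ℕ :=
  Nat.mul (Nat.mul (Nat.mul (Nat.pow (Nat.mul B.i0.den 2) k0)
    (Nat.pow (Nat.mul B.i1.den 2) k1))
    (Nat.pow (Nat.mul B.i2.den 2) k2))
    (Nat.pow (Nat.mul B.i3.den 2) k3)

theorem padF_eq (k0 k1 k2 k3 : ℕ) : padF B k0 k1 k2 k3 = E B.kap (Hpow B ![k0, k1, k2, k3]) := by
  simp only [Hpow, Fin.prod_univ_four, map_mul, map_pow, Hp, map_add, map_one, E_C, E_X]
  rfl

theorem padS_eq (k0 k1 k2 k3 : ℕ) :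
    padS B k0 k1 k2 k3 = E (fun _ => (1 : ℕ)) (Hpow B ![k0, k1, k2, k3]) := by
  simp only [Hpow, Fin.prod_univ_four, map_mul, map_pow, Hp, map_add, map_one, E_C, E_X]
  rfl

/-- multiply by the homogeniser -/
theorem rep_pad {A : Val} {f : (Fin 4 → ℝ) → ℝ} (h : Rep B A f) (k : Fin 4 → ℕ) (m : ℕ)
    (hm : 0 < m) (V : Val)
    (hP : V.P = E B.kap (Hpow B k) * m * A.P) (hN : V.N = E B.kap (Hpow B k) * m * A.N)
    (hS : V.S = E (fun _ => (1 : ℕ)) (Hpow B k) * m * A.S) (hQ : V.Q = A.Q * m)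
    (hd : V.d = A.d + k) : Rep B V f := by
  obtain ⟨h0, p, n, h1, h2, h3, h4, h5, h6⟩ := h
  refine ⟨by rw [hQ]; positivity, C m * (Hpow B k * p), C m * (Hpow B k * n), ?_, ?_, ?_, ?_, ?_,
    ?_⟩
  · rw [map_mul, map_mul, h1, hP, E_C, Nat.cast_id]; ring
  · rw [map_mul, map_mul, h2, hN, E_C, Nat.cast_id]; ring
  · rw [map_mul, map_mul, map_mul, map_mul, hS, ← h3, E_C, Nat.cast_id]; ring
  · intro i
    refine (degreeOf_C_mul_le _ _ _).trans ?_
    refine (degreeOf_mul_le _ _ _).trans ?_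
    rw [hd, Pi.add_apply, add_comm]
    exact add_le_add (h4 i) (degreeOf_Hpow B k i)
  · intro i
    refine (degreeOf_C_mul_le _ _ _).trans ?_
    refine (degreeOf_mul_le _ _ _).trans ?_
    rw [hd, Pi.add_apply, add_comm]
    exact add_le_add (h5 i) (degreeOf_Hpow B k i)
  · intro w hw
    have e1 := h6 w hw
    rw [hQ, hd, Hpow_add]
    simp only [map_mul, E_C]
    push_cast
    linear_combination (m * E w (Hpow B k)) * e1

theorem rep_add' {A A' V : Val} {f g : (Fin 4 → ℝ) → ℝ} (h : Rep B A f) (h' : Rep B A' g)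
    (hd : A.d = A'.d) (hQ : A.Q = A'.Q) (hP : V.P = A.P + A'.P) (hN : V.N = A.N + A'.N)
    (hS : V.S = A.S + A'.S) (hVQ : V.Q = A.Q) (hV : V.d = A.d) : Rep B V (fun w => f w + g w) := by
  obtain ⟨h0, p, n, h1, h2, h3, h4, h5, h6⟩ := h
  obtain ⟨h0', p', n', h1', h2', h3', h4', h5', h6'⟩ := h'
  refine ⟨by rw [hVQ]; exact h0, p + p', n + n', ?_, ?_, ?_, ?_, ?_, ?_⟩
  · rw [map_add, h1, h1', hP]
  · rw [map_add, h2, h2', hN]
  · rw [map_add, map_add, hS, ← h3, ← h3']; ring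
  · intro i
    refine (degreeOf_add_le _ _ _).trans (max_le ?_ ?_)
    · rw [hV]; exact h4 i
    · rw [hV, hd]; exact h4' i
  · intro i
    refine (degreeOf_add_le _ _ _).trans (max_le ?_ ?_)
    · rw [hV]; exact h5 i
    · rw [hV, hd]; exact h5' i
  · intro w hw
    have e1 := h6 w hw
    have e2 := h6' w hw
    rw [← hd, ← hQ] at e2
    rw [map_add, map_add, hV, hVQ]
    linear_combination e1 + e2

def neg (V : Val) : Val := ⟨V.N, V.P, V.S, V.Q, V.d0, V.d1, V.d2, V.d3⟩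

theorem rep_neg {A : Val} {f : (Fin 4 → ℝ) → ℝ} (h : Rep B A f) : Rep B (neg A) (fun w => - f w) := by
  obtain ⟨h0, p, n, h1, h2, h3, h4, h5, h6⟩ := h
  refine ⟨h0, n, p, h2, h1, by rw [add_comm]; exact h3, h5, h4, ?_⟩
  intro w hw
  have e1 := h6 w hw
  change E w n - E w p = - f w * (A.Q * E w (Hpow B A.d))
  linear_combination -e1

theorem rep_mul {A A' V : Val} {f g : (Fin 4 → ℝ) → ℝ} (h : Rep B A f) (h' : Rep B A' g)
    (hP : V.P = A.P * A'.P + A.N * A'.N) (hN : V.N = A.P * A'.N + A.N * A'.P)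
    (hS : V.S = A.S * A'.S) (hQ : V.Q = A.Q * A'.Q) (hV : V.d = A.d + A'.d) :
    Rep B V (fun w => f w * g w) := by
  obtain ⟨h0, p, n, h1, h2, h3, h4, h5, h6⟩ := h
  obtain ⟨h0', p', n', h1', h2', h3', h4', h5', h6'⟩ := h'
  refine ⟨by rw [hQ]; positivity, p * p' + n * n', p * n' + n * p', ?_, ?_, ?_, ?_, ?_, ?_⟩
  · rw [map_add, map_mul, map_mul, h1, h1', h2, h2', hP]
  · rw [map_add, map_mul, map_mul, h1, h1', h2, h2', hN]
  · rw [map_add, map_add, map_mul, map_mul, map_mul, map_mul, hS, ← h3, ← h3']; ring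
  · intro i
    refine (degreeOf_add_le _ _ _).trans (max_le ?_ ?_)
    · refine (degreeOf_mul_le _ _ _).trans ?_
      rw [hV]; exact add_le_add (h4 i) (h4' i)
    · refine (degreeOf_mul_le _ _ _).trans ?_
      rw [hV]; exact add_le_add (h5 i) (h5' i)
  · intro i
    refine (degreeOf_add_le _ _ _).trans (max_le ?_ ?_)
    · refine (degreeOf_mul_le _ _ _).trans ?_
      rw [hV]; exact add_le_add (h4 i) (h5' i)
    · refine (degreeOf_mul_le _ _ _).trans ?_
      rw [hV]; exact add_le_add (h5 i) (h4' i)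
  · intro w hw
    have e1 := h6 w hw
    have e2 := h6' w hw
    rw [hV, hQ, Hpow_add]
    simp only [map_add, map_mul]
    push_cast
    linear_combination (E w p' - E w n') * e1 + f w * (A.Q * E w (Hpow B A.d)) * e2

/-! ### the evaluator -/

def kadd (A A' : Val) (k : Val → Bool) : Bool :=
  force (Nat.add A.d0 (Nat.sub A'.d0 A.d0)) fun D0 =>
  force (Nat.add A.d1 (Nat.sub A'.d1 A.d1)) fun D1 =>
  force (Nat.add A.d2 (Nat.sub A'.d2 A.d2)) fun D2 =>
  force (Nat.add A.d3 (Nat.sub A'.d3 A.d3)) fun D3 =>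
  force (Nat.div A'.Q (Nat.gcd A.Q A'.Q)) fun ma =>
  force (Nat.div A.Q (Nat.gcd A.Q A'.Q)) fun mb =>
  force (Nat.mul (padF B (Nat.sub D0 A.d0) (Nat.sub D1 A.d1) (Nat.sub D2 A.d2) (Nat.sub D3 A.d3))
    ma) fun fa =>
  force (Nat.mul (padF B (Nat.sub D0 A'.d0) (Nat.sub D1 A'.d1) (Nat.sub D2 A'.d2)
    (Nat.sub D3 A'.d3)) mb) fun fb =>
  fV (Nat.add (Nat.mul fa A.P) (Nat.mul fb A'.P)) (Nat.add (Nat.mul fa A.N) (Nat.mul fb A'.N))
    (Nat.add (Nat.mul (Nat.mul (padS B (Nat.sub D0 A.d0) (Nat.sub D1 A.d1) (Nat.sub D2 A.d2)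
      (Nat.sub D3 A.d3)) ma) A.S) (Nat.mul (Nat.mul (padS B (Nat.sub D0 A'.d0) (Nat.sub D1 A'.d1)
      (Nat.sub D2 A'.d2) (Nat.sub D3 A'.d3)) mb) A'.S)) (Nat.mul A.Q ma) D0 D1 D2 D3 k

theorem kadd_sound {A A' : Val} {f g : (Fin 4 → ℝ) → ℝ} (h : Rep B A f) (h' : Rep B A' g)
    (k : Val → Bool) (hk : kadd B A A' k = true) :
    ∃ V, Rep B V (fun w => f w + g w) ∧ k V = true := by
  unfold kadd at hk
  simp only [force_eq, fV_eq] at hk
  set D0 := Nat.add A.d0 (Nat.sub A'.d0 A.d0) with hD0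
  set D1 := Nat.add A.d1 (Nat.sub A'.d1 A.d1) with hD1
  set D2 := Nat.add A.d2 (Nat.sub A'.d2 A.d2) with hD2
  set D3 := Nat.add A.d3 (Nat.sub A'.d3 A.d3) with hD3
  have hQ := h.1
  have hQ' := h'.1
  have hg : 0 < Nat.gcd A.Q A'.Q := Nat.gcd_pos_of_pos_left _ hQ
  set ma := Nat.div A'.Q (Nat.gcd A.Q A'.Q) with hma
  set mb := Nat.div A.Q (Nat.gcd A.Q A'.Q) with hmb
  have hma1 : Nat.gcd A.Q A'.Q * ma = A'.Q := Nat.mul_div_cancel' (Nat.gcd_dvd_right _ _)
  have hmb1 : Nat.gcd A.Q A'.Q * mb = A.Q := Nat.mul_div_cancel' (Nat.gcd_dvd_left _ _)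
  have hma0 : 0 < ma := Nat.pos_of_ne_zero (fun h => by rw [h, mul_zero] at hma1; omega)
  have hmb0 : 0 < mb := Nat.pos_of_ne_zero (fun h => by rw [h, mul_zero] at hmb1; omega)
  have hab : A.Q * ma = A'.Q * mb := by
    calc A.Q * ma = Nat.gcd A.Q A'.Q * mb * ma := by rw [hmb1]
      _ = Nat.gcd A.Q A'.Q * ma * mb := by ring
      _ = A'.Q * mb := by rw [hma1]
  clear_value ma mb
  have key : ∀ a b : ℕ, a + (Nat.add a (Nat.sub b a) - a) = Nat.add a (Nat.sub b a) ∧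
      b + (Nat.add a (Nat.sub b a) - b) = Nat.add a (Nat.sub b a) := by
    intro a b
    change a + (a + (b - a) - a) = a + (b - a) ∧ b + (a + (b - a) - b) = a + (b - a)
    omega
  have hA : Rep B ⟨padF B (D0 - A.d0) (D1 - A.d1) (D2 - A.d2) (D3 - A.d3) * ma * A.P,
      padF B (D0 - A.d0) (D1 - A.d1) (D2 - A.d2) (D3 - A.d3) * ma * A.N,
      padS B (D0 - A.d0) (D1 - A.d1) (D2 - A.d2) (D3 - A.d3) * ma * A.S, A.Q * ma,
      D0, D1, D2, D3⟩ f := by
    refine rep_pad B h ![D0 - A.d0, D1 - A.d1, D2 - A.d2, D3 - A.d3] ma hma0 _ ?_ ?_ ?_ rfl ?_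
    · rw [padF_eq]
    · rw [padF_eq]
    · rw [padS_eq]
    · funext i
      fin_cases i
      · exact ((key A.d0 A'.d0).1).symm
      · exact ((key A.d1 A'.d1).1).symm
      · exact ((key A.d2 A'.d2).1).symm
      · exact ((key A.d3 A'.d3).1).symm
  have hA' : Rep B ⟨padF B (D0 - A'.d0) (D1 - A'.d1) (D2 - A'.d2) (D3 - A'.d3) * mb * A'.P,
      padF B (D0 - A'.d0) (D1 - A'.d1) (D2 - A'.d2) (D3 - A'.d3) * mb * A'.N,
      padS B (D0 - A'.d0) (D1 - A'.d1) (D2 - A'.d2) (D3 - A'.d3) * mb * A'.S, A'.Q * mb,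
      D0, D1, D2, D3⟩ g := by
    refine rep_pad B h' ![D0 - A'.d0, D1 - A'.d1, D2 - A'.d2, D3 - A'.d3] mb hmb0 _ ?_ ?_ ?_ rfl ?_
    · rw [padF_eq]
    · rw [padF_eq]
    · rw [padS_eq]
    · funext i
      fin_cases i
      · exact ((key A.d0 A'.d0).2).symm
      · exact ((key A.d1 A'.d1).2).symm
      · exact ((key A.d2 A'.d2).2).symm
      · exact ((key A.d3 A'.d3).2).symm
  refine ⟨_, ?_, hk⟩
  exact rep_add' B hA hA' rfl hab rfl rfl rfl rfl rfl

def kmul (A A' : Val) (k : Val → Bool) : Bool :=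
  fV (Nat.add (Nat.mul A.P A'.P) (Nat.mul A.N A'.N)) (Nat.add (Nat.mul A.P A'.N)
    (Nat.mul A.N A'.P)) (Nat.mul A.S A'.S) (Nat.mul A.Q A'.Q) (Nat.add A.d0 A'.d0)
    (Nat.add A.d1 A'.d1)
    (Nat.add A.d2 A'.d2) (Nat.add A.d3 A'.d3) k

theorem kmul_sound {A A' : Val} {f g : (Fin 4 → ℝ) → ℝ} (h : Rep B A f) (h' : Rep B A' g)
    (k : Val → Bool) (hk : kmul A A' k = true) :
    ∃ V, Rep B V (fun w => f w * g w) ∧ k V = true := by
  unfold kmul at hk
  rw [fV_eq] at hk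
  refine ⟨_, rep_mul B h h' rfl rfl rfl rfl ?_, hk⟩
  funext i
  fin_cases i <;> rfl

def nth (k : ℕ) (env : List Val) : Val :=
  List.rec (motive := fun _ => ℕ → Val) (fun _ => ⟨0, 0, 0, 1, 0, 0, 0, 0⟩)
    (fun a _ ih k => Nat.rec (motive := fun _ => Val) a (fun k' _ => ih k') k) env k

theorem nth_zero (a : Val) (l : List Val) : nth 0 (a :: l) = a := rfl
theorem nth_succ (a : Val) (l : List Val) (k : ℕ) : nth (k + 1) (a :: l) = nth k l := rfl
theorem nth_nil (k : ℕ) : nth k [] = qV 0 1 := rfl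

def run (e : Ex) : List Val → (Val → Bool) → Bool :=
  Ex.rec (motive := fun _ => List Val → (Val → Bool) → Bool)
    (fun z _ k => fV (zp z) (zn z) (Nat.add (zp z) (zn z)) 1 0 0 0 0 k)
    (fun z d _ k => Bool.rec (motive := fun _ => Bool) false
      (fV (zp z) (zn z) (Nat.add (zp z) (zn z)) d 0 0 0 0 k) (Nat.blt 0 d))
    (fun _ k => (fun V : Val => fV V.P V.N V.S V.Q V.d0 V.d1 V.d2 V.d3 k) (xV B.i0 (W0 B) 1 0 0 0))
    (fun _ k => (fun V : Val => fV V.P V.N V.S V.Q V.d0 V.d1 V.d2 V.d3 k) (xV B.i1 (W1 B) 0 1 0 0))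
    (fun _ k => (fun V : Val => fV V.P V.N V.S V.Q V.d0 V.d1 V.d2 V.d3 k) (xV B.i2 (W2 B) 0 0 1 0))
    (fun _ k => (fun V : Val => fV V.P V.N V.S V.Q V.d0 V.d1 V.d2 V.d3 k) (xV B.i3 (W3 B) 0 0 0 1))
    (fun j env k => k (nth j env))
    (fun _ _ ia ib env k => ia env fun A => ib env fun A' => kadd B A A' k)
    (fun _ _ ia ib env k => ia env fun A => ib env fun A' => kadd B A (neg A') k)
    (fun _ _ ia ib env k => ia env fun A => ib env fun A' => kmul A A' k)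
    (fun _ _ ia ib env k => ia env fun A => ib (A :: env) k) e

/-- positive denominators -/
def Bx.Pos : Prop := 0 < B.i0.den ∧ 0 < B.i1.den ∧ 0 < B.i2.den ∧ 0 < B.i3.den

theorem run_sound (hB : B.Pos) (e : Ex) : ∀ (env : List Val) (fenv : List ((Fin 4 → ℝ) → ℝ))
    (k : Val → Bool), (∀ j, Rep B (nth j env) (fun w => (fenv.map (fun f => f w)).getD j 0)) →
    run B e env k = true →
    ∃ V, Rep B V (fun w => ev (xf B w) e (fenv.map (fun f => f w))) ∧ k V = true := by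
  induction e with
  | c z =>
    intro env fenv k _ hk
    change fV _ _ _ _ _ _ _ _ k = true at hk
    rw [fV_eq] at hk
    exact ⟨_, rep_c B z, hk⟩
  | q z d =>
    intro env fenv k _ hk
    change Bool.rec (motive := fun _ => Bool) false (fV _ _ _ _ _ _ _ _ k) (Nat.blt 0 d) = true
      at hk
    rw [brec_eq, Bool.and_eq_true, fV_eq, Nat.blt_eq] at hk
    exact ⟨_, rep_q B z d hk.1, hk.2⟩
  | x0 =>
    intro env fenv k _ hk
    change fV _ _ _ _ _ _ _ _ k = true at hk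
    rw [fV_eq] at hk
    refine ⟨_, rep_x B 0 _ ?_ rfl rfl rfl rfl hB.1, hk⟩
    funext i; fin_cases i <;> rfl
  | x1 =>
    intro env fenv k _ hk
    change fV _ _ _ _ _ _ _ _ k = true at hk
    rw [fV_eq] at hk
    refine ⟨_, rep_x B 1 _ ?_ rfl rfl rfl rfl hB.2.1, hk⟩
    funext i; fin_cases i <;> rfl
  | x2 =>
    intro env fenv k _ hk
    change fV _ _ _ _ _ _ _ _ k = true at hk
    rw [fV_eq] at hk
    refine ⟨_, rep_x B 2 _ ?_ rfl rfl rfl rfl hB.2.2.1, hk⟩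
    funext i; fin_cases i <;> rfl
  | x3 =>
    intro env fenv k _ hk
    change fV _ _ _ _ _ _ _ _ k = true at hk
    rw [fV_eq] at hk
    refine ⟨_, rep_x B 3 _ ?_ rfl rfl rfl rfl hB.2.2.2, hk⟩
    funext i; fin_cases i <;> rfl
  | v j =>
    intro env fenv k he hk
    exact ⟨_, he j, hk⟩
  | add a b iha ihb =>
    intro env fenv k he hk
    obtain ⟨A, hA, hk1⟩ := iha env fenv _ he hk
    obtain ⟨A', hA', hk2⟩ := ihb env fenv _ he hk1
    exact kadd_sound B hA hA' k hk2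
  | sub a b iha ihb =>
    intro env fenv k he hk
    obtain ⟨A, hA, hk1⟩ := iha env fenv _ he hk
    obtain ⟨A', hA', hk2⟩ := ihb env fenv _ he hk1
    obtain ⟨V, hV, hkV⟩ := kadd_sound B hA (rep_neg B hA') k hk2
    exact ⟨V, hV.congr B (fun w => by simp only [ev]; ring), hkV⟩
  | mul a b iha ihb =>
    intro env fenv k he hk
    obtain ⟨A, hA, hk1⟩ := iha env fenv _ he hk
    obtain ⟨A', hA', hk2⟩ := ihb env fenv _ he hk1
    exact kmul_sound B hA hA' k hk2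
  | letE a b iha ihb =>
    intro env fenv k he hk
    obtain ⟨A, hA, hk1⟩ := iha env fenv _ he hk
    obtain ⟨V, hV, hkV⟩ := ihb (A :: env) ((fun w => ev (xf B w) a (fenv.map (fun f => f w))) ::
      fenv) k (by
        intro j
        cases j with
        | zero => exact hA
        | succ j => exact he j) hk1
    exact ⟨V, hV, hkV⟩

/-- conjunction, lazily -/
def band (a b : Bool) : Bool := Bool.rec (motive := fun _ => Bool) false b a

theorem band_eq (a b : Bool) : band a b = true ↔ a = true ∧ b = true := by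
  cases a <;> simp [band]

/-- the check of one box -/
def chk (e : Ex) : Bool :=
  run B e [] (fun V => band (Nat.blt V.d0 B.m0) (band (Nat.blt V.d1 B.m1)
    (band (Nat.blt V.d2 B.m2) (band (Nat.blt V.d3 B.m3)
      (chkD B.K (Nat.mul B.m0 (Nat.mul B.m1 (Nat.mul B.m2 B.m3))) V.P V.N V.S)))))

theorem chk_w (hB : B.Pos) (e : Ex) (h : chk B e = true) (w : Fin 4 → ℝ) (hw : ∀ i, 0 ≤ w i) :
    0 ≤ ev (xf B w) e [] := by
  obtain ⟨V, hV, hk⟩ := run_sound B hB e [] [] _ (fun j => by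
    rw [nth_nil]
    exact (rep_c B 0).congr B (fun w => by simp)) h
  simp only [band_eq, Nat.blt_eq] at hk
  obtain ⟨h0, h1, h2, h3, h4⟩ := hk
  obtain ⟨hQ0, p, n, hP, hN, hS, hp, hn, hv⟩ := hV
  have key := final_nonneg B.K B.m0 B.m1 B.m2 B.m3 p n V.P V.N V.S hP hN hS
    ⟨(hp 0).trans_lt h0, (hp 1).trans_lt h1, (hp 2).trans_lt h2, (hp 3).trans_lt h3⟩
    ⟨(hn 0).trans_lt h0, (hn 1).trans_lt h1, (hn 2).trans_lt h2, (hn 3).trans_lt h3⟩ h4 w hw
  rw [hv w hw] at key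
  have hpos : 0 < E w (Hpow B V.d) := by
    have hden : ∀ i, 0 < (B.iv i).den := by
      intro i
      obtain ⟨b0, b1, b2, b3⟩ := hB
      fin_cases i
      · exact b0
      · exact b1
      · exact b2
      · exact b3
    rw [Hpow, map_prod]
    refine Finset.prod_pos fun i _ => ?_
    rw [map_pow, Hp]
    simp only [map_mul, map_add, map_one, E_C, E_X]
    have h1 : (0 : ℝ) < (B.iv i).den := by exact_mod_cast hden i
    have h2 := hw i
    positivity
  exact nonneg_of_mul_nonneg_left key (mul_pos (by exact_mod_cast hQ0) hpos)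

theorem cont_ev (g : ℝ → Fin 4 → ℝ) (hg : ∀ i, Continuous (fun t => g t i)) (e : Ex) :
    ∀ env : List (ℝ → ℝ), (∀ f ∈ env, Continuous f) →
    Continuous (fun t => ev (g t) e (env.map (fun f => f t))) := by
  induction e with
  | c z => intro env _; exact continuous_const
  | q z d => intro env _; exact continuous_const
  | x0 => intro env _; exact hg 0
  | x1 => intro env _; exact hg 1
  | x2 => intro env _; exact hg 2
  | x3 => intro env _; exact hg 3
  | v j =>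
    intro env he
    change Continuous (fun t => (env.map (fun f => f t)).getD j 0)
    induction env generalizing j with
    | nil => simp only [List.map_nil, List.getD_nil]; exact continuous_const
    | cons f env ih =>
      cases j with
      | zero => simpa using he f (by simp)
      | succ j => simpa using ih j (fun g hg => he g (by simp [hg]))
  | add a b iha ihb => intro env he; exact (iha env he).add (ihb env he)
  | sub a b iha ihb => intro env he; exact (iha env he).sub (ihb env he)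
  | mul a b iha ihb => intro env he; exact (iha env he).mul (ihb env he)
  | letE a b iha ihb =>
    intro env he
    exact ihb ((fun t => ev (g t) a (env.map (fun f => f t))) :: env) (by
      intro f hf
      rw [List.mem_cons] at hf
      rcases hf with rfl | hf
      · exact iha env he
      · exact he f hf)

/-- membership in the box -/
def Iv.mem (I : Iv) (t : ℝ) : Prop := (I.lo : ℝ) ≤ I.den * t ∧ I.den * t ≤ I.hi

theorem exists_w (I : Iv) (hd : 0 < I.den) (t : ℝ) (h1 : (I.lo : ℝ) ≤ I.den * t)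
    (h2 : I.den * t < I.hi ∨ I.den * t = I.lo) :
    ∃ w : ℝ, 0 ≤ w ∧ (I.lo + I.hi * w) / (I.den * (1 + w)) = t := by
  have hd' : (0 : ℝ) < I.den := by exact_mod_cast hd
  rcases h2 with h2 | h2
  · have h3 : (0 : ℝ) < I.hi - I.den * t := by linarith
    refine ⟨(I.den * t - I.lo) / (I.hi - I.den * t), div_nonneg (by linarith) h3.le, ?_⟩
    have h4 : (0 : ℝ) < I.hi - I.lo := by linarith
    have h5 : (I.den : ℝ) * (1 + (I.den * t - I.lo) / (I.hi - I.den * t)) =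
        I.den * (I.hi - I.lo) / (I.hi - I.den * t) := by
      field_simp; ring
    rw [h5]
    field_simp
    ring
  · refine ⟨0, le_rfl, ?_⟩
    rw [mul_zero, add_zero, add_zero, mul_one, ← h2]
    field_simp

theorem chk_sound (hB : B.Pos) (e : Ex) (h : chk B e = true) (xs : Fin 4 → ℝ)
    (hxs : ∀ i, (B.iv i).mem (xs i)) : 0 ≤ ev xs e [] := by
  have hden : ∀ i, 0 < (B.iv i).den := by
    intro i
    obtain ⟨b0, b1, b2, b3⟩ := hB
    fin_cases i
    · exact b0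
    · exact b1
    · exact b2
    · exact b3
  let g : ℝ → Fin 4 → ℝ := fun t i => (1 - t) * xs i + t * ((B.iv i).lo / (B.iv i).den)
  have hg0 : g 0 = xs := by funext i; simp [g]
  have hc : Continuous (fun t => ev (g t) e []) := by
    refine cont_ev g (fun i => ?_) e [] (by simp)
    simp only [g]
    fun_prop
  have hpos : ∀ t : ℝ, 0 < t → t ≤ 1 → 0 ≤ ev (g t) e [] := by
    intro t ht ht1
    have hw : ∀ i, ∃ w : ℝ, 0 ≤ w ∧
        ((B.iv i).lo + (B.iv i).hi * w) / ((B.iv i).den * (1 + w)) = g t i := by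
      intro i
      have hd' : (0 : ℝ) < (B.iv i).den := by exact_mod_cast hden i
      obtain ⟨hx1, hx2⟩ := hxs i
      have e1 : (B.iv i).den * g t i = (1 - t) * ((B.iv i).den * xs i) + t * (B.iv i).lo := by
        simp only [g]; field_simp
      refine exists_w (B.iv i) (hden i) _ ?_ ?_
      · rw [e1]; nlinarith
      · rw [e1]
        rcases lt_or_eq_of_le (hx1.trans hx2) with h | h
        · left; nlinarith
        · right
          have : (B.iv i).den * xs i = ((B.iv i).lo : ℝ) := le_antisymm (by rw [h]; exact hx2) hx1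
          rw [this]; ring
    choose w hw0 hw1 using hw
    have := chk_w B hB e h w hw0
    have e2 : xf B w = g t := by
      funext i
      exact hw1 i
    rwa [e2] at this
  have hlim : Filter.Tendsto (fun t => ev (g t) e []) (nhdsWithin 0 (Set.Ioi 0))
      (nhds (ev (g 0) e [])) := (hc.tendsto 0).mono_left nhdsWithin_le_nhds
  rw [← hg0]
  refine ge_of_tendsto hlim ?_
  filter_upwards [Ioc_mem_nhdsGT (show (0 : ℝ) < 1 by norm_num)] with t ht
  exact hpos t ht.1 ht.2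

end

end Vale.Agent.P098.Kron
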