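import Vale.Agent.Lib.P098.Chk.Tree

/-!
# P098: trees of bisections with leaves outside the domain

The domain in the variables `Y = xs 0`, `m = xs 1` is `0 ≤ z`, `Y m ≤ 1`, `κ z² ≤ Y m`, with
`z = (1 - Y) m - ε`.
-/

namespace Vale.Agent.P098.Kron

noncomputable section

/-- trees of bisections, `s i a b` halves the variable `i`; `out j` is a leaf outside the domain -/
inductive TO where
  | leaf : TO
  | out (j : ℕ) : TO
  | s (i : ℕ) (a b : TO) : TO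

/-- the domain, `ε = en/ed`, `κ = kn/kd` -/
structure DomY (en ed kn kd : ℕ) (xs : Fin 4 → ℝ) : Prop where
  Y_nn : 0 ≤ xs 0
  Y_le : xs 0 ≤ 1
  m_nn : 0 ≤ xs 1
  z_nn : (en : ℝ) ≤ ed * ((1 - xs 0) * xs 1)
  t_le : xs 0 * xs 1 ≤ 1
  tan : (kn : ℝ) * (ed * ((1 - xs 0) * xs 1) - en) ^ 2 ≤ kd * ed ^ 2 * (xs 0 * xs 1)

/-- outside because of `z < 0` -/
def out0 (en ed : ℕ) (B : Bx) : Bool :=
  decide ((ed : ℤ) * (((B.i0.den : ℤ) - B.i0.lo) * B.i1.hi) < en * (B.i0.den * B.i1.den))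

/-- outside because of `t > 1` -/
def out1 (B : Bx) : Bool :=
  band (decide (0 ≤ B.i0.lo)) (band (decide (0 ≤ B.i1.lo))
    (decide ((B.i0.den * B.i1.den : ℤ) < B.i0.lo * B.i1.lo)))

/-- outside because of `t < κ z²` -/
def out2 (en ed kn kd : ℕ) (B : Bx) : Bool :=
  band (decide (B.i0.hi ≤ B.i0.den)) (band (decide (0 ≤ B.i1.lo)) (band
      (decide ((en : ℤ) * (B.i0.den * B.i1.den) ≤ ed * (((B.i0.den : ℤ) - B.i0.hi) * B.i1.lo)))
      (decide ((kd : ℤ) * ed ^ 2 * (B.i0.den * B.i1.den) * (B.i0.hi * B.i1.hi) <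
        kn * (ed * (((B.i0.den : ℤ) - B.i0.hi) * B.i1.lo) - en * (B.i0.den * B.i1.den)) ^ 2))))

/-- the three checks -/
def outj (en ed kn kd : ℕ) (j : ℕ) (B : Bx) : Bool :=
  Nat.rec (motive := fun _ => Bool) (out0 en ed B)
    (fun n _ => Nat.rec (motive := fun _ => Bool) (out1 B) (fun _ _ => out2 en ed kn kd B) n) j

/-- check with a tree -/
def chkO (en ed kn kd : ℕ) (e : Ex) (t : TO) : Bx → Bool :=
  TO.rec (motive := fun _ => Bx → Bool) (fun B => chk B e) (fun j B => outj en ed kn kd j B)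
    (fun i _ _ ca cb B => band (ca (B.mapI i Iv.left)) (cb (B.mapI i Iv.right))) t

variable {en ed kn kd : ℕ}

theorem out0_sound {B : Bx} (hB : B.Pos) (h : out0 en ed B = true) {xs : Fin 4 → ℝ}
    (hxs : ∀ i, (B.iv i).mem (xs i)) (hD : DomY en ed kn kd xs) : False := by
  unfold out0 at h
  simp only [decide_eq_true_eq] at h
  obtain ⟨b0, b1, -, -⟩ := hB
  obtain ⟨y0, -⟩ := hxs 0
  obtain ⟨-, m1⟩ := hxs 1
  change (B.i0.lo : ℝ) ≤ B.i0.den * xs 0 at y0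
  change (B.i1.den : ℝ) * xs 1 ≤ B.i1.hi at m1
  have h3' : (ed : ℝ) * (((B.i0.den : ℝ) - B.i0.lo) * B.i1.hi) < en * (B.i0.den * B.i1.den) := by
    exact_mod_cast h
  have c0 : (0 : ℝ) < B.i0.den := by exact_mod_cast b0
  have c1 : (0 : ℝ) < B.i1.den := by exact_mod_cast b1
  have hY := hD.Y_le
  have hm := hD.m_nn
  have k1 : (B.i0.den : ℝ) * (1 - xs 0) ≤ B.i0.den - B.i0.lo := by linarith
  have k0 : 0 ≤ (B.i0.den : ℝ) * (1 - xs 0) := mul_nonneg c0.le (by linarith)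
  have k2 : (B.i0.den * (1 - xs 0)) * (B.i1.den * xs 1) ≤
      ((B.i0.den : ℝ) - B.i0.lo) * B.i1.hi :=
    mul_le_mul k1 m1 (mul_nonneg c1.le hm) (k0.trans k1)
  have k3 : (ed : ℝ) * ((B.i0.den * (1 - xs 0)) * (B.i1.den * xs 1)) ≤
      ed * (((B.i0.den : ℝ) - B.i0.lo) * B.i1.hi) :=
    mul_le_mul_of_nonneg_left k2 (Nat.cast_nonneg _)
  have k4 := mul_le_mul_of_nonneg_right hD.z_nn (mul_pos c0 c1).le
  have k5 : (ed : ℝ) * ((1 - xs 0) * xs 1) * (B.i0.den * B.i1.den) =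
      ed * ((B.i0.den * (1 - xs 0)) * (B.i1.den * xs 1)) := by ring
  linarith

theorem out1_sound {B : Bx} (hB : B.Pos) (h : out1 B = true) {xs : Fin 4 → ℝ}
    (hxs : ∀ i, (B.iv i).mem (xs i)) (hD : DomY en ed kn kd xs) : False := by
  unfold out1 at h
  rw [band_eq, band_eq] at h
  simp only [decide_eq_true_eq] at h
  obtain ⟨h1, h2, h3⟩ := h
  obtain ⟨b0, b1, -, -⟩ := hB
  obtain ⟨y0, -⟩ := hxs 0
  obtain ⟨m0, -⟩ := hxs 1
  change (B.i0.lo : ℝ) ≤ B.i0.den * xs 0 at y0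
  change (B.i1.lo : ℝ) ≤ B.i1.den * xs 1 at m0
  have h1' : (0 : ℝ) ≤ B.i0.lo := by exact_mod_cast h1
  have h2' : (0 : ℝ) ≤ B.i1.lo := by exact_mod_cast h2
  have h3' : (B.i0.den : ℝ) * B.i1.den < B.i0.lo * B.i1.lo := by exact_mod_cast h3
  have c0 : (0 : ℝ) < B.i0.den := by exact_mod_cast b0
  have c1 : (0 : ℝ) < B.i1.den := by exact_mod_cast b1
  have k2 : (B.i0.lo : ℝ) * B.i1.lo ≤ (B.i0.den * xs 0) * (B.i1.den * xs 1) :=
    mul_le_mul y0 m0 h2' (h1'.trans y0)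
  have k4 := mul_le_mul_of_nonneg_left hD.t_le (mul_pos c0 c1).le
  have k5 : (B.i0.den * xs 0) * (B.i1.den * xs 1) = B.i0.den * B.i1.den * (xs 0 * xs 1) := by
    ring
  linarith

theorem out2_sound {B : Bx} (hB : B.Pos) (h : out2 en ed kn kd B = true) {xs : Fin 4 → ℝ}
    (hxs : ∀ i, (B.iv i).mem (xs i)) (hD : DomY en ed kn kd xs) : False := by
  unfold out2 at h
  rw [band_eq, band_eq, band_eq] at h
  simp only [decide_eq_true_eq] at h
  obtain ⟨h1, h2, h3, h4⟩ := h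
  obtain ⟨b0, b1, -, -⟩ := hB
  obtain ⟨-, y1⟩ := hxs 0
  obtain ⟨m0, m1⟩ := hxs 1
  change (B.i0.den : ℝ) * xs 0 ≤ B.i0.hi at y1
  change (B.i1.lo : ℝ) ≤ B.i1.den * xs 1 at m0
  change (B.i1.den : ℝ) * xs 1 ≤ B.i1.hi at m1
  have h1' : (B.i0.hi : ℝ) ≤ B.i0.den := by exact_mod_cast h1
  have h2' : (0 : ℝ) ≤ B.i1.lo := by exact_mod_cast h2
  have h3' : (en : ℝ) * (B.i0.den * B.i1.den) ≤ ed * (((B.i0.den : ℝ) - B.i0.hi) * B.i1.lo) := by
    exact_mod_cast h3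
  have h4' : (kd : ℝ) * ed ^ 2 * (B.i0.den * B.i1.den) * (B.i0.hi * B.i1.hi) <
        kn * (ed * (((B.i0.den : ℝ) - B.i0.hi) * B.i1.lo) - en * (B.i0.den * B.i1.den)) ^ 2 := by
    exact_mod_cast h4
  have c0 : (0 : ℝ) < B.i0.den := by exact_mod_cast b0
  have c1 : (0 : ℝ) < B.i1.den := by exact_mod_cast b1
  have hY0 := hD.Y_nn
  have hm := hD.m_nn
  have k1 : (B.i0.den : ℝ) - B.i0.hi ≤ B.i0.den * (1 - xs 0) := by linarith
  have k2 : ((B.i0.den : ℝ) - B.i0.hi) * B.i1.lo ≤ (B.i0.den * (1 - xs 0)) * (B.i1.den * xs 1) :=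
    mul_le_mul k1 m0 h2' ((sub_nonneg.2 h1').trans k1)
  have k3 : (ed : ℝ) * (((B.i0.den : ℝ) - B.i0.hi) * B.i1.lo) ≤
      ed * ((B.i0.den * (1 - xs 0)) * (B.i1.den * xs 1)) :=
    mul_le_mul_of_nonneg_left k2 (Nat.cast_nonneg _)
  have k5 : (ed : ℝ) * ((B.i0.den * (1 - xs 0)) * (B.i1.den * xs 1)) - en *
      (B.i0.den * B.i1.den) = (B.i0.den * B.i1.den) * (ed * ((1 - xs 0) * xs 1) - en) := by ring
  have k6 : (ed * (((B.i0.den : ℝ) - B.i0.hi) * B.i1.lo) - en * (B.i0.den * B.i1.den)) ^ 2 ≤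
      ((B.i0.den * B.i1.den) * (ed * ((1 - xs 0) * xs 1) - en)) ^ 2 := by
    rw [← k5]
    exact pow_le_pow_left₀ (by linarith) (by linarith) 2
  have k7 := mul_le_mul_of_nonneg_left k6 (Nat.cast_nonneg (α := ℝ) kn)
  have k8 := mul_le_mul_of_nonneg_left hD.tan (mul_pos c0 c1).le
  have k9 := mul_le_mul_of_nonneg_left k8 (mul_pos c0 c1).le
  have k10 : (B.i0.den * xs 0) * (B.i1.den * xs 1) ≤ (B.i0.hi : ℝ) * B.i1.hi :=
    mul_le_mul y1 m1 (mul_nonneg c1.le hm) ((mul_nonneg c0.le hY0).trans y1)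
  have k11 : (kd : ℝ) * ed ^ 2 * (B.i0.den * B.i1.den) * ((B.i0.den * xs 0) * (B.i1.den * xs 1)) ≤
      (kd : ℝ) * ed ^ 2 * (B.i0.den * B.i1.den) * (B.i0.hi * B.i1.hi) :=
    mul_le_mul_of_nonneg_left k10 (by positivity)
  have k12 : (kd : ℝ) * ed ^ 2 * (B.i0.den * B.i1.den) * ((B.i0.den * xs 0) * (B.i1.den * xs 1)) =
      (B.i0.den * B.i1.den) * ((B.i0.den * B.i1.den) * (kd * ed ^ 2 * (xs 0 * xs 1))) := by ring
  have k13 : (kn : ℝ) * ((B.i0.den * B.i1.den) * (ed * ((1 - xs 0) * xs 1) - en)) ^ 2 =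
      (B.i0.den * B.i1.den) * ((B.i0.den * B.i1.den) * (kn * (ed * ((1 - xs 0) * xs 1) - en) ^ 2)) := by
    ring
  linarith

theorem outj_sound {B : Bx} (hB : B.Pos) (j : ℕ) (h : outj en ed kn kd j B = true)
    {xs : Fin 4 → ℝ} (hxs : ∀ i, (B.iv i).mem (xs i)) (hD : DomY en ed kn kd xs) : False := by
  match j with
  | 0 => exact out0_sound hB h hxs hD
  | 1 => exact out1_sound hB h hxs hD
  | (n + 2) => exact out2_sound hB h hxs hD

theorem chkO_sound (e : Ex) (t : TO) : ∀ B : Bx, B.Pos → chkO en ed kn kd e t B = true →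
    ∀ xs : Fin 4 → ℝ, (∀ i, (B.iv i).mem (xs i)) → DomY en ed kn kd xs → 0 ≤ ev xs e [] := by
  induction t with
  | leaf => intro B hB h xs hxs _; exact chk_sound B hB e h xs hxs
  | out j => intro B hB h xs hxs hD; exact (outj_sound hB j h hxs hD).elim
  | s i a b iha ihb =>
    intro B hB h xs hxs hD
    obtain ⟨ha, hb⟩ := (band_eq _ _).1 h
    obtain ⟨⟨p1, p2⟩, h | h⟩ := mapI_sound B hB i xs hxs
    · exact iha _ p1 ha xs h hD
    · exact ihb _ p2 hb xs h hD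

end

end Vale.Agent.P098.Kron
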